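import Mathlib

/-!
P092, TEAM D, block [XC-2] of #5294 (helper295): small bumps which are almost invariant, in `L²`,
under conjugation by finitely many commuting elements of a unimodular locally compact group; and
uniform closeness of functions vanishing at infinity.
-/

set_option linter.all false

open MeasureTheory Filter Topology Set

namespace Vale.Agent.P092.H626.Bump

section avg

variable {G : Type*} [Group G]

/-- mean of the conjugates of `b` by `v ^ p`, `p < R` -/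
noncomputable def avg (v : G) (R : ℕ) (b : G → ℝ) : G → ℝ :=
  fun x => (R : ℝ)⁻¹ * ∑ p ∈ Finset.range R, b ((v ^ p)⁻¹ * x * v ^ p)

theorem avg_nonneg (v : G) (R : ℕ) {b : G → ℝ} (hb : ∀ x, 0 ≤ b x) (x : G) : 0 ≤ avg v R b x :=
  mul_nonneg (by positivity) (Finset.sum_nonneg fun p _ => hb _)

theorem avg_self (v : G) (R : ℕ) (b : G → ℝ) (x : G) :
    avg v R b (v⁻¹ * x * v) - avg v R b x = (R : ℝ)⁻¹ * (b ((v ^ R)⁻¹ * x * v ^ R) - b x) := by
  have h1 : ∀ p : ℕ, (v ^ p)⁻¹ * (v⁻¹ * x * v) * v ^ p = (v ^ (p + 1))⁻¹ * x * v ^ (p + 1) := by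
    intro p
    rw [pow_succ', mul_inv_rev]
    simp only [mul_assoc]
  unfold avg
  rw [← mul_sub]
  congr 1
  simp only [h1]
  rw [← Finset.sum_sub_distrib]
  rw [Finset.sum_range_sub (fun p => b ((v ^ p)⁻¹ * x * v ^ p))]
  simp

theorem avg_comm (v u : G) (huv : Commute v u) (R : ℕ) (b : G → ℝ) (x : G) :
    avg v R b (u⁻¹ * x * u) - avg v R b x = avg v R (fun y => b (u⁻¹ * y * u) - b y) x := by
  have h1 : ∀ p : ℕ, (v ^ p)⁻¹ * (u⁻¹ * x * u) * v ^ p = u⁻¹ * ((v ^ p)⁻¹ * x * v ^ p) * u := by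
    intro p
    have c1 : Commute (v ^ p) u := huv.pow_left p
    have c2 : (v ^ p)⁻¹ * u⁻¹ = u⁻¹ * (v ^ p)⁻¹ := (c1.inv_left.inv_right).eq
    have c3 : u * v ^ p = v ^ p * u := c1.eq.symm
    calc (v ^ p)⁻¹ * (u⁻¹ * x * u) * v ^ p = ((v ^ p)⁻¹ * u⁻¹) * x * (u * v ^ p) := by
          simp only [mul_assoc]
      _ = u⁻¹ * ((v ^ p)⁻¹ * x * v ^ p) * u := by
          rw [c2, c3]
          simp only [mul_assoc]
  unfold avg
  rw [← mul_sub, ← Finset.sum_sub_distrib]
  simp only [h1]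

variable [TopologicalSpace G] [IsTopologicalGroup G]

theorem avg_continuous (v : G) (R : ℕ) {b : G → ℝ} (hb : Continuous b) :
    Continuous (avg v R b) := by
  unfold avg
  refine continuous_const.mul (continuous_finset_sum _ fun p _ => hb.comp ?_)
  fun_prop

theorem tsupport_avg (v : G) (R : ℕ) (b : G → ℝ) :
    tsupport (avg v R b) ⊆
      ⋃ p ∈ Finset.range R, (fun x => (v ^ p)⁻¹ * x * v ^ p) ⁻¹' tsupport b := by
  refine closure_minimal ?_ ?_
  · intro x hx
    by_contra h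
    apply hx
    simp only [mem_iUnion, not_exists, mem_preimage] at h
    unfold avg
    rw [Finset.sum_eq_zero, mul_zero]
    intro p hp
    exact image_eq_zero_of_notMem_tsupport (h p hp)
  · refine isClosed_biUnion_finset fun p _ => ?_
    exact (isClosed_tsupport b).preimage (by fun_prop)

/-- conjugation as a homeomorphism -/
def cjH (a : G) : G ≃ₜ G := (Homeomorph.mulLeft a⁻¹).trans (Homeomorph.mulRight a)

@[simp] theorem cjH_apply (a x : G) : cjH a x = a⁻¹ * x * a := rfl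

theorem hcs_conj (a : G) {b : G → ℝ} (hb : HasCompactSupport b) :
    HasCompactSupport fun x => b (a⁻¹ * x * a) :=
  hb.comp_homeomorph (cjH a)

theorem hcs_avg (v : G) (R : ℕ) {b : G → ℝ} (hb : HasCompactSupport b) :
    HasCompactSupport (avg v R b) := by
  refine IsCompact.of_isClosed_subset ?_ (isClosed_tsupport _) (tsupport_avg v R b)
  refine (Finset.range R).isCompact_biUnion fun p _ => ?_
  exact (cjH (v ^ p)).isCompact_preimage.2 hb

variable [MeasurableSpace G] [BorelSpace G] (μ : Measure G) [μ.IsMulLeftInvariant]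
  [μ.IsMulRightInvariant] [IsFiniteMeasureOnCompacts μ]

omit [IsFiniteMeasureOnCompacts μ] in
theorem int_conj (a : G) (b : G → ℝ) : ∫ x, b (a⁻¹ * x * a) ∂μ = ∫ x, b x ∂μ := by
  have h1 := integral_mul_right_eq_self (μ := μ) (fun x => b (a⁻¹ * x)) a
  have h2 := integral_mul_left_eq_self (μ := μ) b a⁻¹
  rw [← h2, ← h1]
  simp only [mul_assoc]

theorem integrable_conj (a : G) {b : G → ℝ} (hb : Continuous b) (hs : HasCompactSupport b) :
    Integrable (fun x => b (a⁻¹ * x * a)) μ :=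
  (hb.comp (by fun_prop : Continuous fun x : G => a⁻¹ * x * a)).integrable_of_hasCompactSupport
    (hcs_conj a hs)

theorem int_avg (v : G) {R : ℕ} (hR : 0 < R) {b : G → ℝ} (hb : Continuous b)
    (hs : HasCompactSupport b) : ∫ x, avg v R b x ∂μ = ∫ x, b x ∂μ := by
  unfold avg
  rw [integral_const_mul, integral_finset_sum _ fun p _ => integrable_conj μ (v ^ p) hb hs]
  simp only [int_conj]
  rw [Finset.sum_const, Finset.card_range, nsmul_eq_mul, ← mul_assoc, inv_mul_cancel₀, one_mul]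
  exact_mod_cast hR.ne'

theorem int_abs_avg_le (v : G) {R : ℕ} (hR : 0 < R) {b : G → ℝ} (hb : Continuous b)
    (hs : HasCompactSupport b) : ∫ x, |avg v R b x| ∂μ ≤ ∫ x, |b x| ∂μ := by
  have hs' : HasCompactSupport fun x => |b x| := hs.comp_left (g := fun t : ℝ => |t|) abs_zero
  rw [← int_avg μ v hR hb.abs hs']
  refine integral_mono ?_ ?_ ?_
  · exact ((avg_continuous v R hb).abs).integrable_of_hasCompactSupport
      ((hcs_avg v R hs).comp_left (g := fun t : ℝ => |t|) abs_zero)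
  · exact (avg_continuous v R hb.abs).integrable_of_hasCompactSupport (hcs_avg v R hs')
  · intro x
    change |avg v R b x| ≤ avg v R (fun x => |b x|) x
    unfold avg
    rw [abs_mul, abs_of_nonneg (by positivity : (0 : ℝ) ≤ (R : ℝ)⁻¹)]
    gcongr
    exact Finset.abs_sum_le_sum_abs _ _

end avg

variable {G : Type*} [Group G] [TopologicalSpace G] [IsTopologicalGroup G] [T2Space G]
  [LocallyCompactSpace G] [MeasurableSpace G] [BorelSpace G] (μ : Measure G)
  [μ.IsMulLeftInvariant] [μ.IsMulRightInvariant] [IsFiniteMeasureOnCompacts μ]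
  [μ.IsOpenPosMeasure]

theorem exists_l1_nil (O : Set G) (hO : O ∈ 𝓝 (1 : G)) : ∃ g : G → ℝ, Continuous g ∧
    HasCompactSupport g ∧ (∀ x, 0 ≤ g x) ∧ tsupport g ⊆ O ∧ ∫ x, g x ∂μ = 1 := by
  obtain ⟨K, hK, hKO, hKc⟩ := local_compact_nhds hO
  obtain ⟨f, hf1, hf0, hfs, hf⟩ := exists_continuous_one_zero_of_isCompact
    (isCompact_singleton (x := (1 : G))) (isOpen_interior (s := K)).isClosed_compl
    (by
      rw [disjoint_singleton_left]
      intro h
      exact h (mem_interior_iff_mem_nhds.2 hK))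
  have h1 : f 1 = 1 := hf1 rfl
  have hpos : 0 < ∫ x, f x ∂μ :=
    f.continuous.integral_pos_of_hasCompactSupport_nonneg_nonzero hfs (fun x => (hf x).1)
      (x := 1) (by rw [h1]; exact one_ne_zero)
  refine ⟨fun x => (∫ x, f x ∂μ)⁻¹ * f x, ?_, ?_, ?_, ?_, ?_⟩
  · exact continuous_const.mul f.continuous
  · exact hfs.mul_left
  · intro x
    exact mul_nonneg (inv_nonneg.2 hpos.le) (hf x).1
  · refine (closure_minimal ?_ hKc.isClosed).trans hKO
    intro x hx
    by_contra h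
    apply hx
    have : f x = 0 := hf0 (fun h' => h (interior_subset h'))
    change (∫ x, f x ∂μ)⁻¹ * f x = 0
    rw [this, mul_zero]
  · rw [integral_const_mul, inv_mul_cancel₀ hpos.ne']

theorem exists_l1 (us : List G) (hc : us.Pairwise Commute) : ∀ O ∈ 𝓝 (1 : G), ∀ δ : ℝ, 0 < δ →
    ∃ g : G → ℝ, Continuous g ∧ HasCompactSupport g ∧ (∀ x, 0 ≤ g x) ∧ tsupport g ⊆ O ∧
      ∫ x, g x ∂μ = 1 ∧ ∀ u ∈ us, ∫ x, |g (u⁻¹ * x * u) - g x| ∂μ ≤ δ := by
  induction us with
  | nil =>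
    intro O hO δ hδ
    obtain ⟨g, h1, h2, h3, h4, h5⟩ := exists_l1_nil μ O hO
    exact ⟨g, h1, h2, h3, h4, h5, by simp⟩
  | cons v vs ih =>
    intro O hO δ hδ
    obtain ⟨hv, hvs⟩ := List.pairwise_cons.1 hc
    obtain ⟨R, hRδ⟩ := exists_nat_gt (2 / δ)
    have hR : 0 < R := by
      have : (0 : ℝ) < R := lt_trans (by positivity) hRδ
      exact_mod_cast this
    have hR' : (0 : ℝ) < R := by exact_mod_cast hR
    have hO' : (⋂ p ∈ Finset.range R, (fun y => v ^ p * y * (v ^ p)⁻¹) ⁻¹' O) ∈ 𝓝 (1 : G) := by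
      refine (Filter.biInter_finset_mem _).2 fun p _ => ?_
      have hct : Continuous fun y : G => v ^ p * y * (v ^ p)⁻¹ := by fun_prop
      refine hct.continuousAt.preimage_mem_nhds ?_
      simpa using hO
    obtain ⟨g, h1, h2, h3, h4, h5, h6⟩ := ih hvs _ hO' δ hδ
    refine ⟨avg v R g, avg_continuous v R h1, hcs_avg v R h2, avg_nonneg v R h3, ?_, ?_, ?_⟩
    · refine (tsupport_avg v R g).trans ?_
      intro x hx
      simp only [mem_iUnion, mem_preimage] at hx
      obtain ⟨p, hp, hx⟩ := hx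
      have h := h4 hx
      simp only [mem_iInter, mem_preimage] at h
      have h' := h p hp
      have e : v ^ p * ((v ^ p)⁻¹ * x * v ^ p) * (v ^ p)⁻¹ = x := by group
      rwa [e] at h'
    · rw [int_avg μ v hR h1 h2, h5]
    · intro u hu
      rcases List.mem_cons.1 hu with rfl | hu
      · simp only [avg_self]
        have hint : Integrable (fun x => g ((u ^ R)⁻¹ * x * u ^ R)) μ := integrable_conj μ _ h1 h2
        have hint' : Integrable g μ := h1.integrable_of_hasCompactSupport h2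
        calc ∫ x, |(R : ℝ)⁻¹ * (g ((u ^ R)⁻¹ * x * u ^ R) - g x)| ∂μ
            ≤ ∫ x, (R : ℝ)⁻¹ * (g ((u ^ R)⁻¹ * x * u ^ R) + g x) ∂μ := by
              refine integral_mono ((hint.sub hint').const_mul _).abs
                ((hint.add hint').const_mul _) fun x => ?_
              change |(R : ℝ)⁻¹ * (g ((u ^ R)⁻¹ * x * u ^ R) - g x)|
                ≤ (R : ℝ)⁻¹ * (g ((u ^ R)⁻¹ * x * u ^ R) + g x)
              rw [abs_mul, abs_of_pos (inv_pos.2 hR')]
              gcongr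
              rw [abs_le]
              constructor
              · linarith [h3 ((u ^ R)⁻¹ * x * u ^ R), h3 x]
              · linarith [h3 ((u ^ R)⁻¹ * x * u ^ R), h3 x]
          _ = (R : ℝ)⁻¹ * 2 := by
              rw [integral_const_mul, integral_add hint hint', int_conj μ (u ^ R) g, h5]
              norm_num
          _ ≤ δ := by
              rw [inv_mul_le_iff₀ hR']
              have := (div_lt_iff₀ hδ).1 hRδ
              linarith
      · simp only [avg_comm v u (hv u hu)]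
        refine (int_abs_avg_le μ v hR ?_ ?_).trans (h6 u hu)
        · exact (h1.comp (by fun_prop : Continuous fun y : G => u⁻¹ * y * u)).sub h1
        · exact (hcs_conj u h2).sub h2

theorem sq_sqrt_sub_le {s t : ℝ} (hs : 0 ≤ s) (ht : 0 ≤ t) :
    (Real.sqrt s - Real.sqrt t) ^ 2 ≤ |s - t| := by
  have h1 := Real.sq_sqrt hs
  have h2 := Real.sq_sqrt ht
  have h3 := Real.sqrt_nonneg s
  have h4 := Real.sqrt_nonneg t
  have e : s - t = (Real.sqrt s - Real.sqrt t) * (Real.sqrt s + Real.sqrt t) := by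
    nlinarith
  rw [e, abs_mul, abs_of_nonneg (add_nonneg h3 h4), ← sq_abs, sq]
  refine mul_le_mul_of_nonneg_left ?_ (abs_nonneg _)
  rw [abs_le]
  constructor <;> linarith

/-- **bumps**, finitely many commuting elements -/
theorem bump_list (us : List G) (hc : us.Pairwise Commute) {O : Set G} (hO : O ∈ 𝓝 (1 : G))
    {ε : ℝ} (hε : 0 < ε) :
    ∃ c : G → ℝ, Continuous c ∧ HasCompactSupport c ∧ (∀ x, 0 ≤ c x) ∧ tsupport c ⊆ O ∧
      ∫ x, c x ^ 2 ∂μ = 1 ∧ ∀ u ∈ us, ∫ x, (c (u⁻¹ * x * u) - c x) ^ 2 ∂μ ≤ ε := by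
  obtain ⟨g, h1, h2, h3, h4, h5, h6⟩ := exists_l1 μ us hc O hO ε hε
  refine ⟨fun x => Real.sqrt (g x), Real.continuous_sqrt.comp h1,
    h2.comp_left (g := Real.sqrt) Real.sqrt_zero, fun x => Real.sqrt_nonneg _, ?_, ?_, ?_⟩
  · exact (tsupport_comp_subset Real.sqrt_zero g).trans h4
  · rw [← h5]
    refine integral_congr_ae (Eventually.of_forall fun x => ?_)
    exact Real.sq_sqrt (h3 x)
  · intro u hu
    refine le_trans ?_ (h6 u hu)
    refine integral_mono_of_nonneg (Eventually.of_forall fun x => sq_nonneg _) ?_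
      (Eventually.of_forall fun x => sq_sqrt_sub_le (h3 _) (h3 _))
    exact ((integrable_conj μ u h1 h2).sub (h1.integrable_of_hasCompactSupport h2)).abs

/-- **[XC-2] bumps**, one element -/
theorem bump (u : G) {O : Set G} (hO : O ∈ 𝓝 (1 : G)) {ε : ℝ} (hε : 0 < ε) :
    ∃ c : G → ℝ, Continuous c ∧ HasCompactSupport c ∧ (∀ x, 0 ≤ c x) ∧ tsupport c ⊆ O ∧
      ∫ x, c x ^ 2 ∂μ = 1 ∧ ∫ x, (c (u⁻¹ * x * u) - c x) ^ 2 ∂μ ≤ ε := by
  obtain ⟨c, h1, h2, h3, h4, h5, h6⟩ := bump_list μ [u] (by simp) hO hε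
  exact ⟨c, h1, h2, h3, h4, h5, h6 u (by simp)⟩

/-- **bumps**, a sequence of commuting elements -/
theorem bump_seq [FirstCountableTopology G] (us : ℕ → G) (hc : ∀ i j, Commute (us i) (us j)) :
    ∃ c : ℕ → G → ℝ, (∀ n, Continuous (c n)) ∧ (∀ n, HasCompactSupport (c n)) ∧
      (∀ n x, 0 ≤ c n x) ∧ (∀ n, ∫ x, c n x ^ 2 ∂μ = 1) ∧
      (∀ O ∈ 𝓝 (1 : G), ∀ᶠ n in atTop, tsupport (c n) ⊆ O) ∧
      ∀ j, Tendsto (fun n => ∫ x, (c n ((us j)⁻¹ * x * us j) - c n x) ^ 2 ∂μ) atTop (𝓝 0) := by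
  obtain ⟨V, hV⟩ := (𝓝 (1 : G)).exists_antitone_basis
  have hP : ∀ n : ℕ, ((List.range n).map us).Pairwise Commute := by
    intro n
    rw [List.pairwise_map]
    exact List.pairwise_of_forall fun i j => hc i j
  choose c h1 h2 h3 h4 h5 h6 using fun n : ℕ =>
    bump_list μ ((List.range n).map us) (hP n) (hV.1.mem_of_mem (i := n) trivial)
      (ε := 1 / ((n : ℝ) + 1)) (by positivity)
  refine ⟨c, h1, h2, h3, h5, ?_, ?_⟩
  · intro O hO
    obtain ⟨n, -, hn⟩ := hV.1.mem_iff.1 hO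
    filter_upwards [eventually_ge_atTop n] with m hm
    exact (h4 m).trans ((hV.2 hm).trans hn)
  · intro j
    refine squeeze_zero' (Eventually.of_forall fun n => integral_nonneg fun x => sq_nonneg _) ?_
      tendsto_one_div_add_atTop_nhds_zero_nat
    filter_upwards [eventually_gt_atTop j] with n hn
    exact h6 n (us j) (List.mem_map.2 ⟨j, List.mem_range.2 hn, rfl⟩)

section unif

variable {H : Type*} [Group H] [TopologicalSpace H] [IsTopologicalGroup H]

/-- **[XC-2] uniform closeness**, plain functions -/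
theorem unif_of {χ : H → ℂ} (hχ : Continuous χ) (h0 : Tendsto χ (cocompact H) (𝓝 0)) {η : ℝ}
    (hη : 0 < η) : ∃ O ∈ 𝓝 (1 : H), ∀ g, ∀ s ∈ O, ∀ s' ∈ O, ‖χ (g * s) - χ (g * s')‖ ≤ η := by
  letI : UniformSpace H := IsTopologicalGroup.leftUniformSpace H
  have hu : UniformContinuous χ := hχ.uniformContinuous_of_tendsto_cocompact h0
  have h1 : {p : H × H | dist (χ p.1) (χ p.2) < η} ∈ comap (fun p : H × H => p.1⁻¹ * p.2) (𝓝 1) :=
    hu (Metric.dist_mem_uniformity hη)
  obtain ⟨V, hV, hV'⟩ := mem_comap.1 h1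
  obtain ⟨W, hW, hW'⟩ := exists_nhds_split_inv hV
  refine ⟨W⁻¹, inv_mem_nhds_one H hW, fun g s hs s' hs' => ?_⟩
  have h2 : (g * s, g * s') ∈ (fun p : H × H => p.1⁻¹ * p.2) ⁻¹' V := by
    have h3 := hW' _ hs _ hs'
    have e : s⁻¹ / s'⁻¹ = (g * s)⁻¹ * (g * s') := by
      rw [div_inv_eq_mul, mul_inv_rev, mul_assoc, inv_mul_cancel_left]
    rw [e] at h3
    exact h3
  have h4 : dist (χ (g * s)) (χ (g * s')) < η := hV' h2
  rw [dist_eq_norm] at h4
  exact h4.le

open scoped ZeroAtInfty in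
/-- **[XC-2] uniform closeness** -/
theorem unif (χ : C₀(H, ℂ)) {η : ℝ} (hη : 0 < η) :
    ∃ O ∈ 𝓝 (1 : H), ∀ g, ∀ s ∈ O, ∀ s' ∈ O, ‖χ (g * s) - χ (g * s')‖ ≤ η :=
  unif_of (map_continuous χ) (zero_at_infty χ) hη

open scoped ZeroAtInfty in
/-- a bump as an element of `C₀(G, ℂ)` -/
def up (c : H → ℝ) (h1 : Continuous c) (h2 : HasCompactSupport c) : C₀(H, ℂ) where
  toFun := fun x => (c x : ℂ)
  continuous_toFun := Complex.continuous_ofReal.comp h1
  zero_at_infty' := by
    have h3 : HasCompactSupport fun x => (c x : ℂ) :=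
      h2.comp_left (g := fun t : ℝ => (t : ℂ)) Complex.ofReal_zero
    exact h3.is_zero_at_infty

@[simp] theorem up_apply (c : H → ℝ) (h1 : Continuous c) (h2 : HasCompactSupport c) (x : H) :
    up c h1 h2 x = (c x : ℂ) := rfl

end unif

end Vale.Agent.P092.H626.Bump
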