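import Vale.Agent.P092.H515.LatSl
import Vale.Agent.P092.RC.Cc

/-!
P092 (helper626), block [PG-UNI]: `PGL_n(k)` (letters `RC.PG`) is unimodular.
-/

set_option linter.all false

open MeasureTheory MeasureTheory.Measure Set Filter Topology
open scoped ENNReal NNReal

namespace Vale.Agent.P092.H626

section alg

variable {k : Type} [Field k] [Infinite k] {n : Type} [Fintype n] [DecidableEq n]

/-- A homomorphism of `GL_n(k)` to a torsion free commutative group which kills the centre is
trivial. -/
theorem gl_hom {A : Type*} [CommGroup A] (hA : ∀ (a : A) (m : ℕ), m ≠ 0 → a ^ m = 1 → a = 1)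
    (F : Matrix.GeneralLinearGroup n k →* A)
    (hF : ∀ z ∈ Subgroup.center (Matrix.GeneralLinearGroup n k), F z = 1)
    (g : Matrix.GeneralLinearGroup n k) : F g = 1 := by
  rcases subsingleton_or_nontrivial n with hn | hn
  · refine hF g ?_
    rw [Subgroup.mem_center_iff]
    intro h
    apply Units.ext
    rw [Units.val_mul, Units.val_mul]
    ext i j
    rw [Matrix.mul_apply, Matrix.mul_apply]
    refine Finset.sum_congr rfl fun x _ => ?_
    have e1 : x = i := Subsingleton.elim _ _
    have e2 : j = i := Subsingleton.elim _ _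
    subst e1
    subst e2
    exact mul_comm _ _
  · refine hA _ (Fintype.card n) Fintype.card_ne_zero ?_
    rw [← map_pow]
    set d : kˣ := Matrix.GeneralLinearGroup.det g with hd
    set z : Matrix.GeneralLinearGroup n k := Matrix.GeneralLinearGroup.scalar n d with hz
    have hzc : z ∈ Subgroup.center (Matrix.GeneralLinearGroup n k) := by
      rw [Matrix.GeneralLinearGroup.center_eq_range_scalar]
      exact ⟨d, rfl⟩
    set s : Matrix.GeneralLinearGroup n k := z⁻¹ * g ^ Fintype.card n with hs
    have hdet : Matrix.GeneralLinearGroup.det s = 1 := by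
      rw [hs, map_mul, map_inv, map_pow, hz, Matrix.GeneralLinearGroup.det_scalar, ← hd,
        inv_mul_cancel]
    have hdet' : (s : Matrix n n k).det = 1 := by
      have h := congrArg (fun x : kˣ => (x : k)) hdet
      simpa using h
    have e : Matrix.SpecialLinearGroup.toGL ⟨(s : Matrix n n k), hdet'⟩ = s := by
      apply Units.ext
      rfl
    have h1 : F s = 1 := by
      rw [← e]
      have h := H899.hom_eq_one (F.comp (Matrix.SpecialLinearGroup.toGL (n := n) (R := k)))
      exact DFunLike.congr_fun h _
    have e2 : g ^ Fintype.card n = z * s := by rw [hs, mul_inv_cancel_left]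
    rw [e2, map_mul, hF z hzc, h1, one_mul]

/-- A homomorphism of `PGL_n(k)` to a torsion free commutative group is trivial. -/
theorem pg_hom {A : Type*} [CommGroup A] (hA : ∀ (a : A) (m : ℕ), m ≠ 0 → a ^ m = 1 → a = 1)
    (f : (Matrix.GeneralLinearGroup n k ⧸ Subgroup.center (Matrix.GeneralLinearGroup n k)) →* A)
    (x : Matrix.GeneralLinearGroup n k ⧸ Subgroup.center (Matrix.GeneralLinearGroup n k)) :
    f x = 1 := by
  obtain ⟨g, rfl⟩ := QuotientGroup.mk'_surjective _ x
  refine gl_hom hA (f.comp (QuotientGroup.mk' _)) (fun z hz => ?_) g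
  rw [MonoidHom.comp_apply, QuotientGroup.mk'_apply, (QuotientGroup.eq_one_iff z).2 hz, map_one]

theorem nnreal_tf (a : ℝ≥0ˣ) (m : ℕ) (hm : m ≠ 0) (h : a ^ m = 1) : a = 1 := by
  apply Units.ext
  have h1 : (a : ℝ≥0) ^ m = 1 := by
    rw [← Units.val_pow_eq_pow_val, h, Units.val_one]
  rw [Units.val_one]
  exact (pow_eq_one_iff_of_nonneg (by positivity) hm).1 h1

end alg

section pg

variable (k : Type) [NontriviallyNormedField k] (n : ℕ) [IsTopologicalGroup (RC.PG k n)]
  [LocallyCompactSpace (RC.PG k n)]

/-- `PGL_n(k)` is unimodular. -/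
theorem modChar_pg (g : RC.PG k n) : modularCharacterFun g = 1 := by
  haveI : Infinite k := NontriviallyNormedField.infinite k
  have h := pg_hom (k := k) (n := Fin n) nnreal_tf
    (modularCharacter (G := RC.PG k n)).toHomUnits g
  exact congrArg (fun x : ℝ≥0ˣ => (x : ℝ≥0)) h

/-- A Haar measure of `PGL_n(k)` is right invariant. -/
theorem rightInv_pg [SecondCountableTopology (RC.PG k n)] [MeasurableSpace (RC.PG k n)] [BorelSpace (RC.PG k n)]
    (μ : Measure (RC.PG k n)) [μ.IsHaarMeasure] : μ.IsMulRightInvariant := by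
  refine ⟨fun g => ?_⟩
  rw [map_right_mul_eq_modularCharacterFun_smul μ g, modChar_pg k n g, one_smul]

end pg

end Vale.Agent.P092.H626
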