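import Mathlib

/-!
P092, TEAM D, block (X3) of #5095 (helper295): an invariant positive bimeasure on `G × P` which is
also invariant under `(x, ξ) ↦ (x u, ξ)`, `u ∈ G` with `u ^ j • ξ → m₀` for all `ξ`, is carried by
the graph `ξ = x • m₀`.

The bimeasure is a positive linear map `ν : C(P, ℝ≥0) → Measure G`; no joint measure is used.
-/

set_option linter.all false

open MeasureTheory Filter Topology Set
open scoped NNReal ENNReal

namespace Vale.Agent.P092.H626.X3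

variable {G P Γ : Type*} [Group G] [TopologicalSpace G] [IsTopologicalGroup G]
  [TopologicalSpace P] [CompactSpace P] [MulAction G P] [ContinuousSMul G P]

/-- translation of functions: `tr s f ξ = f (s⁻¹ • ξ)` -/
def tr (s : G) (f : C(P, ℝ≥0)) : C(P, ℝ≥0) :=
  ⟨fun ξ => f (s⁻¹ • ξ), f.continuous.comp (continuous_const_smul s⁻¹)⟩

@[simp] theorem tr_apply (s : G) (f : C(P, ℝ≥0)) (ξ : P) : tr s f ξ = f (s⁻¹ • ξ) := rfl

theorem tr_mul (s t : G) (f : C(P, ℝ≥0)) : tr (s * t) f = tr s (tr t f) := by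
  ext ξ
  simp [mul_smul]

theorem tr_add (s : G) (f g : C(P, ℝ≥0)) : tr s (f + g) = tr s f + tr s g := by
  ext ξ
  simp

theorem tr_smul (s : G) (c : ℝ≥0) (f : C(P, ℝ≥0)) : tr s (c • f) = c • tr s f := by
  ext ξ
  simp

theorem tr_one (s : G) : tr s (1 : C(P, ℝ≥0)) = 1 := by
  ext ξ
  simp

theorem tr_one' (f : C(P, ℝ≥0)) : tr (1 : G) f = f := by
  ext ξ
  simp

/-- `v` moves `F` by at most `ε` -/
def Sml (F : C(P, ℝ≥0)) (ε : ℝ≥0) (v : G) : Prop := ∀ η : P, F (v • η) ≤ F η + ε ∧ F η ≤ F (v • η) + ε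

theorem sml_ev (F : C(P, ℝ≥0)) {ε : ℝ≥0} (hε : 0 < ε) : ∀ᶠ v in 𝓝 (1 : G), Sml F ε v := by
  have h := (isCompact_univ (X := P)).eventually_forall_of_forall_eventually
    (x₀ := (1 : G)) (P := fun v η => F (v • η) ≤ F η + ε ∧ F η ≤ F (v • η) + ε) (by
      intro η _
      have c1 : ContinuousAt (fun z : G × P => F (z.1 • z.2)) (1, η) :=
        (F.continuous.comp continuous_smul).continuousAt
      have c2 : ContinuousAt (fun z : G × P => F z.2) (1, η) :=
        (F.continuous.comp continuous_snd).continuousAt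
      have e1 : ∀ᶠ z : G × P in 𝓝 (1, η), F (z.1 • z.2) < F z.2 + ε := by
        refine ContinuousAt.eventually_lt c1 (c2.add continuousAt_const) ?_
        simp [hε]
      have e2 : ∀ᶠ z : G × P in 𝓝 (1, η), F z.2 < F (z.1 • z.2) + ε := by
        refine ContinuousAt.eventually_lt c2 (c1.add continuousAt_const) ?_
        simp [hε]
      filter_upwards [e1, e2] with z h1 h2
      exact ⟨h1.le, h2.le⟩)
  filter_upwards [h] with v hv η
  exact hv η (mem_univ _)

/-- comparison of two translates with nearby tags -/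
theorem tr_le {F : C(P, ℝ≥0)} {ε : ℝ≥0} {s s' x : G} (h : Sml F ε (s⁻¹ * x))
    (h' : Sml F ε (s'⁻¹ * x)) : tr s F ≤ tr s' F + (2 * ε) • (1 : C(P, ℝ≥0)) := by
  intro ξ
  have h1 := (h (x⁻¹ • ξ)).1
  have h2 := (h' (x⁻¹ • ξ)).2
  rw [← mul_smul, mul_assoc, mul_inv_cancel, mul_one] at h1 h2
  calc tr s F ξ = F (s⁻¹ • ξ) := rfl
    _ ≤ F (x⁻¹ • ξ) + ε := h1
    _ ≤ F (s'⁻¹ • ξ) + ε + ε := by gcongr
    _ = (tr s' F + (2 * ε) • (1 : C(P, ℝ≥0))) ξ := by
      simp only [ContinuousMap.add_apply, ContinuousMap.smul_apply, ContinuousMap.one_apply,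
        tr_apply, smul_eq_mul, mul_one]
      ring

theorem le_tr {F : C(P, ℝ≥0)} {ε : ℝ≥0} {s x : G} (h : Sml F ε (s⁻¹ * x)) :
    tr x F ≤ tr s F + ε • (1 : C(P, ℝ≥0)) := by
  intro ξ
  have h1 := (h (x⁻¹ • ξ)).2
  rw [← mul_smul, mul_assoc, mul_inv_cancel, mul_one] at h1
  simpa using h1

variable [MeasurableSpace G] [BorelSpace G]

/-- tagged countable partitions -/
structure Tag (G : Type*) [Group G] [MeasurableSpace G] where
  c : G → ℕ
  s : ℕ → G
  meas : ∀ i, MeasurableSet (c ⁻¹' {i})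

/-- all differences to the tag are in `V` -/
def Tag.Fine (t : Tag G) (V : Set G) : Prop := ∀ x, (t.s (t.c x))⁻¹ * x ∈ V

theorem exists_tag [SecondCountableTopology G] (V : Set G) (hV : V ∈ 𝓝 (1 : G)) :
    ∃ t : Tag G, t.Fine V := by
  classical
  obtain ⟨W, hWV, hWo, h1⟩ := mem_nhds_iff.1 hV
  obtain ⟨s, hs⟩ := TopologicalSpace.exists_dense_seq G
  have hex : ∀ x : G, ∃ n, (s n)⁻¹ * x ∈ W := by
    intro x
    have ho : IsOpen {y : G | y⁻¹ * x ∈ W} :=
      hWo.preimage ((continuous_inv).mul continuous_const)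
    obtain ⟨n, hn⟩ := hs.exists_mem_open ho ⟨x, by simpa using h1⟩
    exact ⟨n, hn⟩
  have hm : Measurable (fun x => Nat.find (hex x)) := by
    apply measurable_find hex
    intro k
    exact (hWo.preimage (continuous_const.mul continuous_id)).measurableSet
  refine ⟨⟨fun x => Nat.find (hex x), s, fun i => hm (measurableSet_singleton i)⟩, ?_⟩
  intro x
  exact hWV (Nat.find_spec (hex x))

variable (ν : C(P, ℝ≥0) →ₗ[ℝ≥0] Measure G)

theorem mono {f g : C(P, ℝ≥0)} (h : f ≤ g) : ν f ≤ ν g := by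
  have e : g = f + ⟨fun x => g x - f x, g.continuous.sub f.continuous⟩ := by
    ext x
    exact congrArg _ (add_tsub_cancel_of_le (h x)).symm
  rw [e, map_add]
  exact Measure.le_add_right le_rfl

theorem le_norm (f : C(P, ℝ≥0)) : ∃ c : ℝ≥0, f ≤ c • (1 : C(P, ℝ≥0)) := by
  rcases isEmpty_or_nonempty P with h | h
  · exact ⟨0, fun x => h.elim x⟩
  · obtain ⟨x, -, hx⟩ := (isCompact_univ (X := P)).exists_isMaxOn univ_nonempty
      f.continuous.continuousOn
    refine ⟨f x, fun y => ?_⟩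
    simpa using hx (mem_univ y)

theorem ac (f : C(P, ℝ≥0)) : ν f ≪ ν 1 := by
  obtain ⟨c, hc⟩ := le_norm f
  have h := mono ν hc
  rw [map_smul] at h
  exact (Measure.absolutelyContinuous_of_le h).trans
    (Measure.smul_absolutelyContinuous)

/-- the tagged sum, as a measure in the domain of integration -/
noncomputable def N (t : Tag G) (F : C(P, ℝ≥0)) : Measure G :=
  Measure.sum (fun i => (ν (tr (t.s i) F)).restrict (t.c ⁻¹' {i}))

theorem N_apply (t : Tag G) (F : C(P, ℝ≥0)) {B : Set G} (hB : MeasurableSet B) :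
    N ν t F B = ∑' i, ν (tr (t.s i) F) (B ∩ t.c ⁻¹' {i}) := by
  rw [N, Measure.sum_apply _ hB]
  simp_rw [Measure.restrict_apply hB]

theorem sum_pieces (t : Tag G) (κ : Measure G) {B : Set G} (hB : MeasurableSet B) :
    ∑' i, κ (B ∩ t.c ⁻¹' {i}) = κ B := by
  rw [← measure_iUnion]
  · congr 1
    ext x
    simp
  · intro i j hij
    refine disjoint_left.2 ?_
    rintro x ⟨-, h1⟩ ⟨-, h2⟩
    exact hij (h1.symm.trans h2)
  · intro i
    exact hB.inter (t.meas i)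

/-- a.e. fundamental domains -/
def Fd [Group Γ] (q : Γ →* G) (κ : Measure G) (D : Set G) : Prop :=
  MeasurableSet D ∧ ∀ᵐ x ∂κ, ∃! γ, q γ * x ∈ D


theorem Fd.symm [Group Γ] {q : Γ →* G} {κ : Measure G} {D : Set G} (h : Fd q κ D) :
    ∀ᵐ x ∂κ, ∃! γ, (q γ)⁻¹ * x ∈ D := by
  filter_upwards [h.2] with x hx
  obtain ⟨γ, h1, h2⟩ := hx
  refine ⟨γ⁻¹, by simpa using h1, fun γ' h' => ?_⟩
  have := h2 γ'⁻¹ (by simpa using h')
  rw [← this, inv_inv]

/-- invariance under the group `Γ` -/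
def GInv [Group Γ] (q : Γ →* G) : Prop :=
  ∀ γ f, ν (tr (q γ) f) = (ν f).map (fun x => q γ * x)

theorem GInv.apply [Group Γ] {q : Γ →* G} (h : GInv ν q) (γ : Γ) (f : C(P, ℝ≥0)) {A : Set G}
    (hA : MeasurableSet A) : ν (tr (q γ) f) {y | (q γ)⁻¹ * y ∈ A} = ν f A := by
  have hm : Measurable (fun x : G => q γ * x) := (continuous_const.mul continuous_id).measurable
  have hm' : Measurable (fun x : G => (q γ)⁻¹ * x) :=
    (continuous_const.mul continuous_id).measurable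
  rw [h, Measure.map_apply hm (show MeasurableSet {y | (q γ)⁻¹ * y ∈ A} from hm' hA)]
  congr 1
  ext x
  simp

/-- **comparison**: two fine tagged sums over two fundamental domains differ by a small amount -/
theorem cmp [Group Γ] [Countable Γ] {q : Γ →* G} (hG : GInv ν q) {D D' : Set G}
    (hD : Fd q (ν 1) D) (hD' : Fd q (ν 1) D') {F : C(P, ℝ≥0)} {ε : ℝ≥0} {V : Set G}
    (hV : ∀ v ∈ V, Sml F ε v) {t t' : Tag G} (ht : t.Fine V) (ht' : t'.Fine V) :
    N ν t F D ≤ N ν t' F D' + (2 * ε : ℝ≥0) * ν 1 D' := by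
  have hmul : ∀ γ, Measurable (fun x : G => q γ * x) := fun γ =>
    (continuous_const.mul continuous_id).measurable
  have hmul' : ∀ γ, Measurable (fun x : G => (q γ)⁻¹ * x) := fun γ =>
    (continuous_const.mul continuous_id).measurable
  -- the pieces
  obtain ⟨A, hA⟩ : ∃ A : ℕ → Γ → Set G, ∀ i γ, A i γ = (D ∩ t.c ⁻¹' {i}) ∩ {x | q γ * x ∈ D'} :=
    ⟨_, fun _ _ => rfl⟩
  have hAm : ∀ i γ, MeasurableSet (A i γ) := fun i γ => by
    rw [hA]
    exact (hD.1.inter (t.meas i)).inter (hmul γ hD'.1)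
  obtain ⟨S, hS⟩ : ∃ S : ℕ → Γ → Set G, ∀ i γ, S i γ = {y | (q γ)⁻¹ * y ∈ A i γ} :=
    ⟨_, fun _ _ => rfl⟩
  have hSm : ∀ i γ, MeasurableSet (S i γ) := fun i γ => by
    rw [hS]
    exact hmul' γ (hAm i γ)
  have hSi : ∀ i γ y, y ∈ S i γ → t.c ((q γ)⁻¹ * y) = i ∧ (q γ)⁻¹ * y ∈ D ∧ y ∈ D' := by
    intro i γ y hy
    rw [hS] at hy
    have hy' : (q γ)⁻¹ * y ∈ A i γ := hy
    rw [hA] at hy'
    have h3 : q γ * ((q γ)⁻¹ * y) ∈ D' := hy'.2
    rw [mul_inv_cancel_left] at h3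
    exact ⟨hy'.1.2, hy'.1.1, h3⟩
  obtain ⟨μ, hμ⟩ : ∃ μ : ℕ → Measure G, ∀ j, μ j = ν (tr (t'.s j) F + (2 * ε) • 1) :=
    ⟨_, fun _ => rfl⟩
  have hμac : ∀ j, μ j ≪ ν 1 := by
    intro j
    rw [hμ]
    exact ac ν _
  have hμa : ∀ j B, μ j B = ν (tr (t'.s j) F) B + (2 * ε : ℝ≥0) * ν 1 B := by
    intro j B
    rw [hμ, map_add, map_smul, Measure.add_apply, Measure.smul_apply]
    rfl
  -- step 1
  have s1 : ∀ i, ν (tr (t.s i) F) (D ∩ t.c ⁻¹' {i}) ≤ ∑' γ, ν (tr (t.s i) F) (A i γ) := by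
    intro i
    refine le_trans ?_ (measure_iUnion_le _)
    apply measure_mono_ae
    filter_upwards [(ac ν (tr (t.s i) F)) hD'.2] with x hx hxD
    obtain ⟨γ, hγ, -⟩ := hx
    refine mem_iUnion.2 ⟨γ, ?_⟩
    rw [hA]
    exact ⟨hxD, hγ⟩
  -- step 2
  have s2 : ∀ i γ, ν (tr (t.s i) F) (A i γ) = ν (tr (q γ * t.s i) F) (S i γ) := by
    intro i γ
    rw [tr_mul, hS]
    exact (hG.apply ν γ _ (hAm i γ)).symm
  -- step 3
  have s3 : ∀ i γ, ν (tr (q γ * t.s i) F) (S i γ) ≤ ∑' j, μ j (S i γ ∩ t'.c ⁻¹' {j}) := by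
    intro i γ
    rw [← sum_pieces t' _ (hSm i γ)]
    refine ENNReal.tsum_le_tsum fun j => ?_
    rcases (S i γ ∩ t'.c ⁻¹' {j}).eq_empty_or_nonempty with h | ⟨y, hy1, hy2⟩
    · rw [h]
      simp
    · have e1 : Sml F ε ((q γ * t.s i)⁻¹ * y) := by
        have h1 : t.c ((q γ)⁻¹ * y) = i := (hSi i γ y hy1).1
        have h2 := ht ((q γ)⁻¹ * y)
        rw [h1] at h2
        have := hV _ h2
        rwa [mul_inv_rev, mul_assoc]
      have e2 : Sml F ε ((t'.s j)⁻¹ * y) := by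
        have h1 : t'.c y = j := hy2
        have h2 := ht' y
        rw [h1] at h2
        exact hV _ h2
      rw [hμ]
      exact mono ν (tr_le e1 e2) _
  -- step 4
  have s4 : ∀ j, ∑' p : ℕ × Γ, μ j (S p.1 p.2 ∩ t'.c ⁻¹' {j}) ≤ μ j (D' ∩ t'.c ⁻¹' {j}) := by
    intro j
    refine (tsum_meas_le_meas_iUnion_of_disjoint₀ (μ j)
      (fun p : ℕ × Γ => ((hSm p.1 p.2).inter (t'.meas j)).nullMeasurableSet) ?_).trans ?_
    · rintro ⟨i, γ⟩ ⟨i', γ'⟩ hne
      have hae := (hμac j) hD.symm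
      refine measure_mono_null ?_ (show (μ j) {y | ¬ ∃! γ, (q γ)⁻¹ * y ∈ D} = 0 from hae)
      rintro y ⟨⟨h1, -⟩, ⟨h2, -⟩⟩ hu
      apply hne
      have hγ : γ = γ' := hu.unique (hSi _ _ _ h1).2.1 (hSi _ _ _ h2).2.1
      subst hγ
      have hi : i = i' := (hSi _ _ _ h1).1.symm.trans (hSi _ _ _ h2).1
      rw [hi]
    · apply measure_mono
      rintro y hy
      obtain ⟨p, h1, h2⟩ := mem_iUnion.1 hy
      exact ⟨(hSi _ _ _ h1).2.2, h2⟩
  have s5 : ∑' i, ∑' γ, ∑' j, μ j (S i γ ∩ t'.c ⁻¹' {j})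
      = ∑' j, ∑' p : ℕ × Γ, μ j (S p.1 p.2 ∩ t'.c ⁻¹' {j}) := by
    rw [← ENNReal.tsum_prod (f := fun i γ => ∑' j, μ j (S i γ ∩ t'.c ⁻¹' {j}))]
    exact ENNReal.tsum_comm
  have s6 : ∑' j, μ j (D' ∩ t'.c ⁻¹' {j}) = N ν t' F D' + (2 * ε : ℝ≥0) * ν 1 D' := by
    simp_rw [hμa]
    rw [ENNReal.tsum_add, ENNReal.tsum_mul_left, sum_pieces t' _ hD'.1, N_apply ν t' F hD'.1]
  rw [N_apply ν t F hD.1, ← s6]
  refine le_trans ?_ (s5.le.trans (ENNReal.tsum_le_tsum s4))
  refine ENNReal.tsum_le_tsum fun i => (s1 i).trans ?_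
  refine ENNReal.tsum_le_tsum fun γ => ?_
  rw [s2]
  exact s3 i γ

/-- right translation of a tagged partition -/
def Tag.rt (t : Tag G) (u : G) : Tag G where
  c x := t.c (x * u)
  s i := t.s i * u⁻¹
  meas i := (continuous_id.mul continuous_const).measurable (t.meas i)

theorem Tag.rt_fine {t : Tag G} {V V' : Set G} (ht : t.Fine V) (u : G)
    (h : ∀ v ∈ V, u * v * u⁻¹ ∈ V') : (t.rt u).Fine V' := by
  intro x
  have h1 := h _ (ht (x * u))
  have e : u * ((t.s (t.c (x * u)))⁻¹ * (x * u)) * u⁻¹ = (t.s (t.c (x * u)) * u⁻¹)⁻¹ * x := by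
    group
  rw [e] at h1
  exact h1

theorem N_rt {u : G} (hu : ∀ f, (ν f).map (fun x => x * u) = ν f) (t : Tag G)
    (F : C(P, ℝ≥0)) {D : Set G} (hD : MeasurableSet D) :
    N ν (t.rt u) (tr u F) {x | x * u ∈ D} = N ν t F D := by
  have hm : Measurable (fun x : G => x * u) := (continuous_id.mul continuous_const).measurable
  rw [N_apply ν _ _ (show MeasurableSet {x | x * u ∈ D} from hm hD), N_apply ν t F hD]
  congr 1
  ext i
  have e1 : tr ((t.rt u).s i) (tr u F) = tr (t.s i) F := by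
    rw [← tr_mul]
    change tr (t.s i * u⁻¹ * u) F = _
    rw [inv_mul_cancel_right]
  rw [e1]
  conv_rhs => rw [← hu (tr (t.s i) F), Measure.map_apply hm (hD.inter (t.meas i))]
  rfl

theorem Fd.rt [Group Γ] {q : Γ →* G} {u : G} (hu : ∀ f, (ν f).map (fun x => x * u) = ν f)
    {D : Set G} (hD : Fd q (ν 1) D) : Fd q (ν 1) {x | x * u ∈ D} := by
  have hm : Measurable (fun x : G => x * u) := (continuous_id.mul continuous_const).measurable
  refine ⟨hm hD.1, ?_⟩
  have h := hD.2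
  rw [← hu 1] at h
  filter_upwards [ae_of_ae_map hm.aemeasurable h] with x hx
  simpa only [mem_setOf_eq, mul_assoc] using hx

theorem meas_rt {u : G} (hu : ∀ f, (ν f).map (fun x => x * u) = ν f)
    {D : Set G} (hD : MeasurableSet D) : ν 1 {x | x * u ∈ D} = ν 1 D := by
  have hm : Measurable (fun x : G => x * u) := (continuous_id.mul continuous_const).measurable
  conv_rhs => rw [← hu 1, Measure.map_apply hm hD]
  rfl

theorem N_le (t : Tag G) {F : C(P, ℝ≥0)} {c : ℝ≥0} (hF : F ≤ c • (1 : C(P, ℝ≥0))) {D : Set G}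
    (hD : MeasurableSet D) : N ν t F D ≤ c * ν 1 D := by
  rw [N_apply ν t F hD, ← sum_pieces t _ hD, ← ENNReal.tsum_mul_left]
  refine ENNReal.tsum_le_tsum fun i => ?_
  have h : tr (t.s i) F ≤ c • (1 : C(P, ℝ≥0)) := by
    intro ξ
    simpa using hF ((t.s i)⁻¹ • ξ)
  have h2 := mono ν h (D ∩ t.c ⁻¹' {i})
  rw [map_smul] at h2
  exact h2

theorem N_add (t : Tag G) (F F' : C(P, ℝ≥0)) {D : Set G} (hD : MeasurableSet D) :
    N ν t (F + F') D = N ν t F D + N ν t F' D := by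
  rw [N_apply ν t _ hD, N_apply ν t _ hD, N_apply ν t _ hD, ← ENNReal.tsum_add]
  congr 1
  ext i
  rw [tr_add, map_add, Measure.add_apply]

theorem N_smul (t : Tag G) (c : ℝ≥0) (F : C(P, ℝ≥0)) {D : Set G} (hD : MeasurableSet D) :
    N ν t (c • F) D = c * N ν t F D := by
  rw [N_apply ν t _ hD, N_apply ν t _ hD, ← ENNReal.tsum_mul_left]
  congr 1
  ext i
  rw [tr_smul, map_smul, Measure.smul_apply]
  rfl

/-- the data: a sequence of finer and finer tagged partitions -/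
theorem exists_seq [SecondCountableTopology G] :
    ∃ t : ℕ → Tag G, ∀ V ∈ 𝓝 (1 : G), ∀ᶠ n in atTop, (t n).Fine V := by
  obtain ⟨V, hV⟩ := (𝓝 (1 : G)).exists_antitone_basis
  choose t ht using fun n => exists_tag (V n) (hV.mem n)
  refine ⟨t, fun W hW => ?_⟩
  obtain ⟨n, hn⟩ := hV.mem_iff.1 hW
  filter_upwards [eventually_ge_atTop n] with m hm
  intro x
  exact hn (hV.antitone hm (ht m x))

/-- the limit of the tagged sums over a fundamental domain -/
theorem exists_lim [SecondCountableTopology G] [Group Γ] [Countable Γ] {q : Γ →* G}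
    (hG : GInv ν q) {D : Set G} (hD : Fd q (ν 1) D) (hfin : ν 1 D < ∞) {t : ℕ → Tag G}
    (ht : ∀ V ∈ 𝓝 (1 : G), ∀ᶠ n in atTop, (t n).Fine V) (F : C(P, ℝ≥0)) :
    ∃ r : ℝ≥0, Tendsto (fun n => N ν (t n) F D) atTop (𝓝 (r : ℝ≥0∞)) := by
  obtain ⟨c, hc⟩ := le_norm F
  have hle : ∀ n, N ν (t n) F D ≤ c * ν 1 D := fun n => N_le ν (t n) hc hD.1
  have hfin' : c * ν 1 D < ∞ := ENNReal.mul_lt_top ENNReal.coe_lt_top hfin
  set a : ℕ → ℝ≥0∞ := fun n => N ν (t n) F D with ha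
  have key : limsup a atTop ≤ liminf a atTop := by
    apply ENNReal.le_of_forall_pos_le_add
    intro δ hδ _
    -- choose ε with 2 ε ν 1 D ≤ δ
    obtain ⟨ε, hε, hεδ⟩ : ∃ ε : ℝ≥0, 0 < ε ∧ ((2 * ε : ℝ≥0) : ℝ≥0∞) * ν 1 D ≤ δ := by
      refine ⟨δ / (2 * ((ν 1 D).toNNReal + 1)), by positivity, ?_⟩
      rw [← ENNReal.coe_toNNReal hfin.ne, ← ENNReal.coe_mul]
      refine ENNReal.coe_le_coe.2 ?_
      rw [ENNReal.toNNReal_coe]
      set b := (ν 1 D).toNNReal
      calc 2 * (δ / (2 * (b + 1))) * b ≤ 2 * (δ / (2 * (b + 1))) * (b + 1) := by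
            gcongr
            exact le_self_add
        _ = δ := by
            field_simp
    have hev := ht _ (sml_ev (G := G) F hε)
    obtain ⟨n₀, hn₀⟩ := eventually_atTop.1 hev
    have h1 : ∀ n ≥ n₀, ∀ m ≥ n₀, a n ≤ a m + δ := by
      intro n hn m hm
      refine (cmp ν hG hD hD (V := {v | Sml F ε v}) (fun v hv => hv) (hn₀ n hn)
        (hn₀ m hm)).trans ?_
      gcongr
    have h2 : ∀ m ≥ n₀, limsup a atTop ≤ a m + δ := by
      intro m hm
      refine limsup_le_of_le (by isBoundedDefault) ?_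
      filter_upwards [eventually_ge_atTop n₀] with n hn
      exact h1 n hn m hm
    have h3 : limsup a atTop - δ ≤ liminf a atTop := by
      refine le_liminf_of_le (by isBoundedDefault) ?_
      filter_upwards [eventually_ge_atTop n₀] with m hm
      exact tsub_le_iff_right.2 (h2 m hm)
    exact tsub_le_iff_right.1 h3
  have hlim : Tendsto a atTop (𝓝 (liminf a atTop)) :=
    tendsto_of_le_liminf_of_limsup_le le_rfl key
  have hf : liminf a atTop < ∞ := by
    refine lt_of_le_of_lt ?_ hfin'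
    refine liminf_le_of_le (by isBoundedDefault) ?_
    intro b hb
    obtain ⟨n, hn⟩ := hb.exists
    exact hn.trans (hle n)
  refine ⟨(liminf a atTop).toNNReal, ?_⟩
  rw [ENNReal.coe_toNNReal hf.ne]
  exact hlim

/-- everything about the limit functional -/
theorem exists_R [SecondCountableTopology G] [Group Γ] [Countable Γ] {q : Γ →* G}
    (hG : GInv ν q) {D : Set G} (hD : Fd q (ν 1) D) (hfin : ν 1 D < ∞) {u : G}
    (hu : ∀ f, (ν f).map (fun x => x * u) = ν f) {t : ℕ → Tag G}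
    (ht : ∀ V ∈ 𝓝 (1 : G), ∀ᶠ n in atTop, (t n).Fine V) :
    ∃ R : C(P, ℝ≥0) →ₗ[ℝ≥0] ℝ≥0,
      (∀ F, Tendsto (fun n => N ν (t n) F D) atTop (𝓝 (R F : ℝ≥0∞))) ∧
      ∀ F, R (tr u F) = R F := by
  choose r hr using fun F => exists_lim ν hG hD hfin ht F
  have hadd : ∀ F F', r (F + F') = r F + r F' := by
    intro F F'
    have h1 := hr (F + F')
    have h2 := (hr F).add (hr F')
    simp_rw [N_add ν _ F F' hD.1] at h1
    have := tendsto_nhds_unique h1 h2
    exact_mod_cast this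
  have hsmul : ∀ (c : ℝ≥0) F, r (c • F) = c • r F := by
    intro c F
    have h1 := hr (c • F)
    have h2 := ENNReal.Tendsto.const_mul (a := (c : ℝ≥0∞)) (hr F) (Or.inr ENNReal.coe_ne_top)
    simp_rw [N_smul ν _ c F hD.1] at h1
    have := tendsto_nhds_unique h1 h2
    exact_mod_cast this
  refine ⟨{ toFun := r, map_add' := hadd, map_smul' := hsmul }, hr, ?_⟩
  have hcont : Continuous fun v : G => u * v * u⁻¹ := by fun_prop
  have hD' := hD.rt ν hu
  have hm' : ν 1 {x | x * u ∈ D} = ν 1 D := meas_rt ν hu hD.1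
  -- two inequalities up to `ε`
  have two : ∀ F, ∀ ε : ℝ≥0, 0 < ε →
      (r F : ℝ≥0∞) ≤ r (tr u F) + (2 * ε : ℝ≥0) * ν 1 D ∧
      (r (tr u F) : ℝ≥0∞) ≤ r F + (2 * ε : ℝ≥0) * ν 1 D := by
    intro F ε hε
    have e1 := ht _ (sml_ev (G := G) (tr u F) hε)
    have hV : {v : G | Sml (tr u F) ε (u * v * u⁻¹)} ∈ 𝓝 (1 : G) := by
      have h := hcont.tendsto 1
      rw [mul_one, mul_inv_cancel] at h
      exact h (sml_ev (G := G) (tr u F) hε)
    have e2 := ht _ hV
    have fine : ∀ᶠ n in atTop, (t n).Fine {v | Sml (tr u F) ε v} ∧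
        ((t n).rt u).Fine {v | Sml (tr u F) ε v} := by
      filter_upwards [e1, e2] with n h1 h2
      exact ⟨h1, Tag.rt_fine h2 u (fun v hv => hv)⟩
    constructor
    · refine le_of_tendsto_of_tendsto (hr F) ((hr (tr u F)).add tendsto_const_nhds) ?_
      filter_upwards [fine] with n hn
      rw [← N_rt ν hu (t n) F hD.1]
      exact cmp ν hG hD' hD (V := {v | Sml (tr u F) ε v}) (fun v hv => hv) hn.2 hn.1
    · refine le_of_tendsto_of_tendsto (hr (tr u F)) ((hr F).add tendsto_const_nhds) ?_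
      filter_upwards [fine] with n hn
      rw [← N_rt ν hu (t n) F hD.1, ← hm']
      exact cmp ν hG hD hD' (V := {v | Sml (tr u F) ε v}) (fun v hv => hv) hn.1 hn.2
  have lim0 : Tendsto (fun ε : ℝ≥0 => ((2 * ε : ℝ≥0) : ℝ≥0∞) * ν 1 D) (𝓝[>] 0) (𝓝 0) := by
    have h : Tendsto (fun ε : ℝ≥0 => ((2 * ε : ℝ≥0) : ℝ≥0∞)) (𝓝 0) (𝓝 ((2 * 0 : ℝ≥0) : ℝ≥0∞)) :=
      (ENNReal.continuous_coe.comp (continuous_const.mul continuous_id)).tendsto 0
    have h2 := ENNReal.Tendsto.mul_const (b := ν 1 D) h (Or.inr hfin.ne)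
    simp only [mul_zero, ENNReal.coe_zero, zero_mul] at h2
    exact h2.mono_left nhdsWithin_le_nhds
  intro F
  change r (tr u F) = r F
  apply le_antisymm
  · have h := ge_of_tendsto (f := fun ε : ℝ≥0 => (r F : ℝ≥0∞) + ((2 * ε : ℝ≥0) : ℝ≥0∞) * ν 1 D)
      (x := 𝓝[>] (0 : ℝ≥0)) (a := (r F : ℝ≥0∞)) (b := (r (tr u F) : ℝ≥0∞))
      (by simpa using (tendsto_const_nhds (x := (r F : ℝ≥0∞))).add lim0)
      (by
        filter_upwards [self_mem_nhdsWithin] with ε hε
        exact (two F ε hε).2)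
    exact_mod_cast h
  · have h := ge_of_tendsto (f := fun ε : ℝ≥0 => (r (tr u F) : ℝ≥0∞) + ((2 * ε : ℝ≥0) : ℝ≥0∞) * ν 1 D)
      (x := 𝓝[>] (0 : ℝ≥0)) (a := (r (tr u F) : ℝ≥0∞)) (b := (r F : ℝ≥0∞))
      (by simpa using (tendsto_const_nhds (x := (r (tr u F) : ℝ≥0∞))).add lim0)
      (by
        filter_upwards [self_mem_nhdsWithin] with ε hε
        exact (two F ε hε).1)
    exact_mod_cast h

/-- an invariant positive functional on `C(P)` is the evaluation at `m₀` -/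
theorem R_eval [T2Space P] {u : G} {m₀ : P}
    (hm : ∀ ξ : P, Tendsto (fun j : ℕ => u ^ j • ξ) atTop (𝓝 m₀))
    (R : C(P, ℝ≥0) →ₗ[ℝ≥0] ℝ≥0) (hR : ∀ F : C(P, ℝ≥0), R (tr u F) = R F) (F : C(P, ℝ≥0)) :
    R F = R 1 * F m₀ := by
  letI : MeasurableSpace P := borel P
  haveI : BorelSpace P := ⟨rfl⟩
  let Λ : CompactlySupportedContinuousMap P ℝ≥0 →ₗ[ℝ≥0] ℝ≥0 :=
    { toFun := fun f => R f.toContinuousMap
      map_add' := fun f g => by
        rw [← map_add]
        rfl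
      map_smul' := fun c f => by
        rw [← map_smul]
        rfl }
  set ρ := NNRealRMK.rieszMeasure Λ with hρ
  have hΛ : ∀ F : C(P, ℝ≥0), ∫⁻ x, F x ∂ρ = R F := by
    intro F
    exact NNRealRMK.lintegral_rieszMeasure Λ
      (CompactlySupportedContinuousMap.continuousMapEquiv F)
  have hρ1 : ρ univ = R 1 := by
    have h := hΛ 1
    simpa using h
  have hpow : ∀ j : ℕ, ∀ F : C(P, ℝ≥0), R (tr (u ^ j)⁻¹ F) = R F := by
    intro j
    induction j with
    | zero => intro F; rw [pow_zero, inv_one, tr_one']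
    | succ j ih =>
      intro F
      have e : tr u (tr (u ^ (j + 1))⁻¹ F) = tr (u ^ j)⁻¹ F := by
        rw [← tr_mul]
        congr 1
        rw [pow_succ', mul_inv_rev]
        have hc : Commute u (u ^ j)⁻¹ := (Commute.refl u).pow_right j |>.inv_right
        rw [← mul_assoc, hc.eq, mul_assoc, mul_inv_cancel, mul_one]
      rw [← hR, e, ih]
  obtain ⟨c, hc⟩ := le_norm F
  have hlim : Tendsto (fun j : ℕ => ∫⁻ x, (F (u ^ j • x) : ℝ≥0∞) ∂ρ) atTop
      (𝓝 (∫⁻ _x, (F m₀ : ℝ≥0∞) ∂ρ)) := by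
    refine tendsto_lintegral_of_dominated_convergence (fun _ => (c : ℝ≥0∞)) ?_ ?_ ?_ ?_
    · intro j
      have h : Continuous fun x : P => (F (u ^ j • x) : ℝ≥0∞) :=
        ENNReal.continuous_coe.comp (F.continuous.comp (continuous_const_smul _))
      exact h.measurable
    · intro j
      refine Eventually.of_forall fun x => ?_
      have := hc (u ^ j • x)
      simpa using this
    · rw [lintegral_const, hρ1]
      exact ENNReal.mul_ne_top ENNReal.coe_ne_top ENNReal.coe_ne_top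
    · refine Eventually.of_forall fun x => ?_
      exact (ENNReal.continuous_coe.tendsto _).comp ((F.continuous.tendsto m₀).comp (hm x))
  have hconst : ∀ j : ℕ, ∫⁻ x, (F (u ^ j • x) : ℝ≥0∞) ∂ρ = R F := by
    intro j
    have h := hΛ (tr (u ^ j)⁻¹ F)
    rw [hpow] at h
    rw [← h]
    simp
  simp_rw [hconst] at hlim
  have h := tendsto_nhds_unique hlim tendsto_const_nhds
  rw [lintegral_const, hρ1] at h
  rw [mul_comm]
  exact_mod_cast h.symm

/-- the last step: a function which is dominated by the translates of `F`, `F m₀ = 0` -/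
theorem null_of_dom {D : Set G} (hD : MeasurableSet D) (hfin : ν 1 D < ∞) {t : ℕ → Tag G}
    (ht : ∀ V ∈ 𝓝 (1 : G), ∀ᶠ n in atTop, (t n).Fine V) {F : C(P, ℝ≥0)}
    (hF : Tendsto (fun n => N ν (t n) F D) atTop (𝓝 0)) {f : C(P, ℝ≥0)} {B : Set G}
    (hB : MeasurableSet B) (hBD : B ⊆ D) (hf : ∀ y ∈ B, f ≤ tr y F) : ν f B = 0 := by
  have key : ∀ ε : ℝ≥0, 0 < ε → ν f B ≤ (ε : ℝ≥0∞) * ν 1 D := by
    intro ε hε
    refine ge_of_tendsto (f := fun n => N ν (t n) F D + (ε : ℝ≥0∞) * ν 1 D)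
      (by simpa using hF.add (tendsto_const_nhds (x := (ε : ℝ≥0∞) * ν 1 D))) ?_
    filter_upwards [ht _ (sml_ev (G := G) F hε)] with n hn
    calc ν f B = ∑' i, ν f (B ∩ (t n).c ⁻¹' {i}) := (sum_pieces (t n) _ hB).symm
      _ ≤ ∑' i, (ν (tr ((t n).s i) F) (D ∩ (t n).c ⁻¹' {i})
            + (ε : ℝ≥0∞) * ν 1 (D ∩ (t n).c ⁻¹' {i})) := by
          refine ENNReal.tsum_le_tsum fun i => ?_
          rcases (B ∩ (t n).c ⁻¹' {i}).eq_empty_or_nonempty with h | ⟨y, hy1, hy2⟩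
          · rw [h]
            simp
          · have e1 : Sml F ε (((t n).s i)⁻¹ * y) := by
              have h1 : (t n).c y = i := hy2
              have h2 := hn y
              rw [h1] at h2
              exact h2
            have h3 : f ≤ tr ((t n).s i) F + ε • 1 := (hf y hy1).trans (le_tr e1)
            have h4 := mono ν h3 (B ∩ (t n).c ⁻¹' {i})
            rw [map_add, map_smul, Measure.add_apply, Measure.smul_apply] at h4
            refine h4.trans ?_
            gcongr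
            exact mul_le_mul_right (measure_mono (inter_subset_inter_left _ hBD)) _
      _ = N ν (t n) F D + (ε : ℝ≥0∞) * ν 1 D := by
          rw [ENNReal.tsum_add, ENNReal.tsum_mul_left, sum_pieces (t n) _ hD, N_apply ν _ F hD]
  have lim0 : Tendsto (fun ε : ℝ≥0 => (ε : ℝ≥0∞) * ν 1 D) (𝓝[>] 0) (𝓝 0) := by
    have h : Tendsto (fun ε : ℝ≥0 => (ε : ℝ≥0∞)) (𝓝 0) (𝓝 ((0 : ℝ≥0) : ℝ≥0∞)) :=
      ENNReal.continuous_coe.tendsto 0
    have h2 := ENNReal.Tendsto.mul_const (b := ν 1 D) h (Or.inr hfin.ne)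
    simp only [ENNReal.coe_zero, zero_mul] at h2
    exact h2.mono_left nhdsWithin_le_nhds
  refine le_antisymm ?_ bot_le
  refine ge_of_tendsto lim0 ?_
  filter_upwards [self_mem_nhdsWithin] with ε hε
  exact key ε hε

/-- **(X3a)** An invariant bimeasure is carried by the graph `ξ = x • m₀`. -/
theorem graph_support [T2Space G] [SecondCountableTopology G] [LocallyCompactSpace G] [T2Space P]
    [Group Γ] [Countable Γ] {q : Γ →* G}
    (hG : GInv ν q) {D : Set G} (hD : Fd q (ν 1) D) (hfin : ν 1 D < ∞) {u : G}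
    (hu : ∀ f, (ν f).map (fun x => x * u) = ν f) {m₀ : P}
    (hm : ∀ ξ : P, Tendsto (fun j : ℕ => u ^ j • ξ) atTop (𝓝 m₀))
    (f : C(P, ℝ≥0)) (S : Set P) (hS : IsClosed S) (hf : ∀ ξ ∈ S, f ξ = 0) :
    ν f {x : G | x • m₀ ∈ S} = 0 := by
  obtain ⟨t, ht⟩ := exists_seq (G := G)
  obtain ⟨R, hR, hRu⟩ := exists_R ν hG hD hfin hu ht
  -- exhaust by compact sets
  have hcover : {x : G | x • m₀ ∈ S} ⊆ ⋃ k, ({x : G | x • m₀ ∈ S} ∩ compactCovering G k) := by
    intro x hx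
    have : x ∈ ⋃ k, compactCovering G k := by
      rw [iUnion_compactCovering]
      trivial
    obtain ⟨k, hk⟩ := mem_iUnion.1 this
    exact mem_iUnion.2 ⟨k, hx, hk⟩
  refine measure_mono_null hcover (measure_iUnion_null fun k => ?_)
  set B : Set G := {x : G | x • m₀ ∈ S} ∩ compactCovering G k with hB
  have hcl : IsClosed {x : G | x • m₀ ∈ S} :=
    hS.preimage (continuous_id.smul continuous_const)
  have hBc : IsCompact B := (isCompact_compactCovering G k).inter_left hcl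
  have hBm : MeasurableSet B := hcl.measurableSet.inter (isCompact_compactCovering G k).measurableSet
  -- the envelope
  have hcontF : Continuous fun η : P => sSup ((fun x : G => f (x • η)) '' B) :=
    hBc.continuous_sSup (f := fun (η : P) (x : G) => f (x • η))
      (f.continuous.comp (continuous_snd.smul continuous_fst))
  set F : C(P, ℝ≥0) := ⟨_, hcontF⟩ with hF
  have hbdd : ∀ η, BddAbove ((fun x : G => f (x • η)) '' B) := by
    intro η
    obtain ⟨c, hc⟩ := le_norm f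
    refine ⟨c, ?_⟩
    rintro _ ⟨x, -, rfl⟩
    simpa using hc (x • η)
  have hF0 : F m₀ = 0 := by
    change sSup ((fun x : G => f (x • m₀)) '' B) = 0
    refine le_antisymm ?_ bot_le
    apply csSup_le'
    rintro _ ⟨x, hx, rfl⟩
    exact (hf _ hx.1).le
  have hFle : ∀ x ∈ B, f ≤ tr x F := by
    intro x hx ξ
    have h' : f (x • (x⁻¹ • ξ)) ≤ sSup ((fun z : G => f (z • (x⁻¹ • ξ))) '' B) :=
      le_csSup (hbdd (x⁻¹ • ξ)) ⟨x, hx, rfl⟩
    rw [smul_inv_smul] at h'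
    exact h'
  have hlim : Tendsto (fun n => N ν (t n) F D) atTop (𝓝 0) := by
    have h := hR F
    rw [R_eval hm R hRu F, hF0, mul_zero] at h
    simpa using h
  -- cut `B` by the translates of the fundamental domain
  have hcov : ν f (B \ ⋃ γ, {x | q γ * x ∈ D}) = 0 := by
    have h := (ac ν f) hD.2
    refine measure_mono_null ?_ (show ν f {x | ¬ ∃! γ, q γ * x ∈ D} = 0 from h)
    rintro x ⟨-, hx⟩ ⟨γ, hγ, -⟩
    exact hx (mem_iUnion.2 ⟨γ, hγ⟩)
  have hpc : ∀ γ, ν f (B ∩ {x | q γ * x ∈ D}) = 0 := by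
    intro γ
    have hmD : MeasurableSet {x : G | q γ * x ∈ D} :=
      (continuous_const.mul continuous_id).measurable hD.1
    have hA : MeasurableSet (B ∩ {x : G | q γ * x ∈ D}) := hBm.inter hmD
    rw [← hG.apply ν γ f hA]
    have hmul' : Measurable (fun x : G => (q γ)⁻¹ * x) :=
      (continuous_const.mul continuous_id).measurable
    refine null_of_dom ν hD.1 hfin ht hlim (hmul' hA) ?_ ?_
    · rintro y ⟨-, hy⟩
      have hy' : q γ * ((q γ)⁻¹ * y) ∈ D := hy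
      rwa [mul_inv_cancel_left] at hy'
    · rintro y ⟨hy, -⟩ ξ
      have h : f ((q γ)⁻¹ • ξ) ≤ F (((q γ)⁻¹ * y)⁻¹ • ((q γ)⁻¹ • ξ)) := hFle _ hy _
      rw [← mul_smul, mul_inv_rev, inv_inv, mul_assoc, mul_inv_cancel, mul_one] at h
      exact h
  have hsplit : B ⊆ (B \ ⋃ γ, {x | q γ * x ∈ D}) ∪ ⋃ γ, (B ∩ {x | q γ * x ∈ D}) := by
    intro x hx
    by_cases h : x ∈ ⋃ γ, {x | q γ * x ∈ D}
    · right
      obtain ⟨γ, hγ⟩ := mem_iUnion.1 h
      exact mem_iUnion.2 ⟨γ, hx, hγ⟩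
    · left
      exact ⟨hx, h⟩
  exact measure_mono_null hsplit (measure_union_null hcov (measure_iUnion_null hpc))

end Vale.Agent.P092.H626.X3
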